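import Vale.Agent.Lib.P070.K.K6
import Vale.Agent.Lib.P070.Interface

/-!
# P070 Part K: Kadison transitivity
-/

namespace P070

theorem partK.{u} : PartK.{u} := by
  intro A _ K _ _ _ π hπ ξ η hξ hη
  exact K6_main hπ hξ hη

end P070
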