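import Vale.Agent.Lib.P070.K.Schur

/-!
# P070, part K: the density theorem
-/

namespace P070

universe u v

variable {A : Type u} [CStarAlgebra A] {K : Type v} [NormedAddCommGroup K]
  [InnerProductSpace ℂ K] [CompleteSpace K] {π : A →⋆ₐ[ℂ] (K →L[ℂ] K)}

/-- the diagonal operator on `K^n` -/
noncomputable def kDiag (n : ℕ) (S : K →L[ℂ] K) :
    PiLp 2 (fun _ : Fin n => K) →L[ℂ] PiLp 2 (fun _ : Fin n => K) :=
  (PiLp.continuousLinearEquiv 2 ℂ (fun _ : Fin n => K)).symm.toContinuousLinearMap ∘L
    (ContinuousLinearMap.pi fun i => S ∘L ContinuousLinearMap.proj i) ∘L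
    (PiLp.continuousLinearEquiv 2 ℂ (fun _ : Fin n => K)).toContinuousLinearMap

omit [CompleteSpace K] in
theorem kDiag_apply {n : ℕ} (S : K →L[ℂ] K) (x : PiLp 2 (fun _ : Fin n => K)) (i : Fin n) :
    kDiag n S x i = S (x i) := rfl

/-- the orbit map -/
noncomputable def kOrb (π : A →⋆ₐ[ℂ] (K →L[ℂ] K)) {n : ℕ} (z : Fin n → K) :
    A →ₗ[ℂ] PiLp 2 (fun _ : Fin n => K) where
  toFun a := WithLp.toLp 2 fun i => π a (z i)
  map_add' a b := by
    ext i
    simp
  map_smul' r a := by
    ext i
    simp

theorem kOrb_apply {n : ℕ} (z : Fin n → K) (a : A) (i : Fin n) :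
    kOrb π z a i = π a (z i) := rfl

theorem k_dens (h : Irr π) {n : ℕ} (S : K →L[ℂ] K) (z : Fin n → K) {ε : ℝ} (hε : 0 < ε) :
    ∃ a : A, ∀ i, ‖π a (z i) - S (z i)‖ < ε := by
  classical
  set V : Submodule ℂ (PiLp 2 (fun _ : Fin n => K)) :=
    (LinearMap.range (kOrb π z)).topologicalClosure with hV
  have hVc : IsClosed (V : Set (PiLp 2 (fun _ : Fin n => K))) :=
    Submodule.isClosed_topologicalClosure _
  have : CompleteSpace V := hVc.completeSpace_coe
  have hinv : ∀ (a : A), ∀ x ∈ V, kDiag n (π a) x ∈ V := by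
    intro a x hx
    have hx' : x ∈ closure ((LinearMap.range (kOrb π z) : Submodule ℂ _) :
        Set (PiLp 2 (fun _ : Fin n => K))) := hx
    have h1 : kDiag n (π a) x ∈ closure ((LinearMap.range (kOrb π z) : Submodule ℂ _) :
        Set (PiLp 2 (fun _ : Fin n => K))) := by
      refine map_mem_closure (kDiag n (π a)).continuous hx' ?_
      rintro _ ⟨b, rfl⟩
      refine ⟨a * b, ?_⟩
      ext i
      rw [kDiag_apply, kOrb_apply, kOrb_apply, map_mul]
      rfl
    exact h1
  have hadj : ∀ (a : A) (x y : PiLp 2 (fun _ : Fin n => K)),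
      inner ℂ x (kDiag n (π a) y) = inner ℂ (kDiag n (π (star a)) x) y := by
    intro a x y
    rw [PiLp.inner_apply, PiLp.inner_apply]
    refine Finset.sum_congr rfl fun i _ => ?_
    rw [kDiag_apply, kDiag_apply, map_star, ContinuousLinearMap.star_eq_adjoint,
      ContinuousLinearMap.adjoint_inner_left]
  have hinv' : ∀ (a : A), ∀ x ∈ Vᗮ, kDiag n (π a) x ∈ Vᗮ := by
    intro a x hx
    rw [Submodule.mem_orthogonal] at hx ⊢
    intro y hy
    rw [hadj]
    exact hx _ (hinv _ _ hy)
  have hcomm : ∀ (a : A) (x : PiLp 2 (fun _ : Fin n => K)),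
      V.starProjection (kDiag n (π a) x) = kDiag n (π a) (V.starProjection x) := by
    intro a x
    have h1 : x = V.starProjection x + (x - V.starProjection x) := by abel
    have h2 : x - V.starProjection x ∈ Vᗮ := Submodule.sub_starProjection_mem_orthogonal x
    have h3 : V.starProjection (kDiag n (π a) (x - V.starProjection x)) = 0 :=
      (Submodule.starProjection_apply_eq_zero_iff V).2 (hinv' a _ h2)
    have h4 : V.starProjection (kDiag n (π a) (V.starProjection x)) =
        kDiag n (π a) (V.starProjection x) :=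
      Submodule.starProjection_eq_self_iff.2
        (hinv a _ (Submodule.starProjection_apply_mem V x))
    conv_lhs => rw [h1]
    rw [map_add, map_add, h3, h4, add_zero]
  -- the matrix entries
  let E : Fin n → Fin n → (K →L[ℂ] K) := fun i j =>
    (ContinuousLinearMap.proj (R := ℂ) (φ := fun _ : Fin n => K) i) ∘L
      (PiLp.continuousLinearEquiv 2 ℂ (fun _ : Fin n => K)).toContinuousLinearMap ∘L
      V.starProjection ∘L
      (PiLp.continuousLinearEquiv 2 ℂ (fun _ : Fin n => K)).symm.toContinuousLinearMap ∘L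
      (ContinuousLinearMap.single ℂ (fun _ : Fin n => K) j)
  have hE : ∀ i j x, E i j x = V.starProjection (WithLp.toLp 2 (Pi.single j x)) i :=
    fun i j x => rfl
  have hEc : ∀ i j a, Commute (π a) (E i j) := by
    intro i j a
    ext x
    change π a (E i j x) = E i j (π a x)
    rw [hE, hE, ← kDiag_apply, ← hcomm]
    have h1 : kDiag n (π a) (WithLp.toLp 2 (Pi.single (M := fun _ : Fin n => K) j x)) =
        WithLp.toLp 2 (Pi.single (M := fun _ : Fin n => K) j (π a x)) := by
      ext k
      rw [kDiag_apply]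
      change π a (Pi.single (M := fun _ : Fin n => K) j x k) =
        Pi.single (M := fun _ : Fin n => K) j (π a x) k
      by_cases hk : k = j
      · subst hk
        rw [Pi.single_eq_same, Pi.single_eq_same]
      · rw [Pi.single_eq_of_ne hk, Pi.single_eq_of_ne hk, map_zero]
    rw [h1]
  choose r hr using fun i j => k_schur h (T := E i j) (hEc i j)
  have hPx : ∀ (x : PiLp 2 (fun _ : Fin n => K)) i, V.starProjection x i = ∑ j, r i j • x j := by
    intro x i
    have h1 : x = ∑ j, WithLp.toLp 2 (Pi.single (M := fun _ : Fin n => K) j (x j)) := by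
      ext k
      rw [WithLp.ofLp_sum, Finset.sum_apply]
      have : ∀ j, (Pi.single (M := fun _ : Fin n => K) j (x j)) k =
          if k = j then x j else 0 := by
        intro j
        by_cases hk : k = j
        · subst hk
          rw [Pi.single_eq_same, if_pos rfl]
        · rw [Pi.single_eq_of_ne hk, if_neg hk]
      simp only [this]
      rw [Finset.sum_ite_eq]
      simp
    conv_lhs => rw [h1]
    rw [map_sum, WithLp.ofLp_sum, Finset.sum_apply]
    refine Finset.sum_congr rfl fun j _ => ?_
    rw [← hE, hr]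
    rfl
  have hS : ∀ x : PiLp 2 (fun _ : Fin n => K),
      V.starProjection (kDiag n S x) = kDiag n S (V.starProjection x) := by
    intro x
    ext i
    rw [hPx, kDiag_apply, hPx, map_sum]
    refine Finset.sum_congr rfl fun j _ => ?_
    rw [kDiag_apply, map_smul]
  have hz : kOrb π z 1 ∈ V := Submodule.le_topologicalClosure _ ⟨1, rfl⟩
  have h5 : kDiag n S (kOrb π z 1) ∈ V := by
    rw [← Submodule.starProjection_eq_self_iff.2 hz, ← hS]
    exact Submodule.starProjection_apply_mem V _
  have h6 : kDiag n S (kOrb π z 1) ∈ closure ((LinearMap.range (kOrb π z) : Submodule ℂ _) :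
        Set (PiLp 2 (fun _ : Fin n => K))) := h5
  obtain ⟨_, ⟨a, rfl⟩, ha⟩ := Metric.mem_closure_iff.1 h6 ε hε
  refine ⟨a, fun i => ?_⟩
  rw [dist_comm, dist_eq_norm] at ha
  have h7 := PiLp.norm_apply_le (kOrb π z a - kDiag n S (kOrb π z 1)) i
  have h8 : (kOrb π z a - kDiag n S (kOrb π z 1)) i = π a (z i) - S (z i) := by
    rw [PiLp.sub_apply, kDiag_apply, kOrb_apply, kOrb_apply, map_one]
    rfl
  rw [h8] at h7
  exact h7.trans_lt ha

end P070
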