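import Vale.Agent.Lib.P070.K.Sa

/-!
# P070 K4: Kaplansky density (one vector)

f t = 2 t / (1 + t ^ 2) maps ℝ to [-1, 1]; on [-1, 1] it has the continuous inverse g s = s / (1 + √(1 - s ^ 2)).
-/

open Filter Topology

namespace P070

universe uA uK

variable {A : Type uA} [CStarAlgebra A] {K : Type uK} [NormedAddCommGroup K]
  [InnerProductSpace ℂ K] [CompleteSpace K] {π : A →⋆ₐ[ℂ] (K →L[ℂ] K)}

/-- the inverse of 2 t / (1 + t ^ 2) at a selfadjoint contraction -/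
theorem K4_inverse {S : K →L[ℂ] K} (hS : IsSelfAdjoint S) (hS1 : ‖S‖ ≤ 1) :
    ∃ S0 : K →L[ℂ] K, IsSelfAdjoint S0 ∧ (2 : ℂ) • S0 = S * (1 + S0 * S0) := by
  rcases subsingleton_or_nontrivial K with hK | hK
  · exact ⟨0, IsSelfAdjoint.zero _, ContinuousLinearMap.ext fun x => Subsingleton.elim _ _⟩
  let g : ℝ → ℝ := fun s => s / (1 + Real.sqrt (1 - s ^ 2))
  have hd : ∀ s : ℝ, (1 + Real.sqrt (1 - s ^ 2)) ≠ 0 := fun s => by
    have := Real.sqrt_nonneg (1 - s ^ 2)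
    positivity
  have hg : Continuous g := by
    refine Continuous.div continuous_id ?_ hd
    exact continuous_const.add (Real.continuous_sqrt.comp (by fun_prop))
  have hgc : ContinuousOn g (spectrum ℝ S) := hg.continuousOn
  have hg0 : IsSelfAdjoint (cfc g S) := cfc_predicate g S
  refine ⟨cfc g S, hg0, ?_⟩
  have h1 : (2 : ℂ) • cfc g S = cfc (fun s => 2 * g s) S := by
    rw [cfc_const_mul (2 : ℝ) g S hgc]
    ext x
    simp [two_smul]
  have h2 : S * (1 + cfc g S * cfc g S) = cfc (fun s => s * (1 + g s * g s)) S := by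
    rw [cfc_mul (fun s => s) (fun s => 1 + g s * g s) S continuousOn_id
      (continuousOn_const.add (hgc.mul hgc)), cfc_id' ℝ S,
      cfc_add S (fun _ => (1 : ℝ)) (fun s => g s * g s) continuousOn_const (hgc.mul hgc),
      cfc_mul g g S hgc hgc, cfc_const_one ℝ S]
  rw [h1, h2]
  refine cfc_congr fun s hs => ?_
  have hs1 : |s| ≤ 1 := by
    have := spectrum.norm_le_norm_of_mem hs
    rw [Real.norm_eq_abs] at this
    exact this.trans hS1
  have hs2 : s ^ 2 ≤ 1 := by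
    rw [← sq_abs]
    exact pow_le_one₀ (abs_nonneg _) hs1
  have hq : Real.sqrt (1 - s ^ 2) ^ 2 = 1 - s ^ 2 := Real.sq_sqrt (by linarith)
  have hd' := hd s
  simp only [g]
  generalize Real.sqrt (1 - s ^ 2) = c at hq hd'
  field_simp
  have hs3 : s ^ 2 = 1 - c ^ 2 := by linarith
  rw [hs3]
  ring

/-- the function 2 t / (1 + t ^ 2) at a selfadjoint element -/
theorem K4_fun {b : A} (hb : IsSelfAdjoint b) :
    ∃ a : A, IsSelfAdjoint a ∧ ‖a‖ ≤ 1 ∧ (1 + b * b) * a = (2 : ℂ) • b := by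
  let f : ℝ → ℝ := fun t => 2 * t / (1 + t ^ 2)
  have hd : ∀ t : ℝ, (1 + t ^ 2) ≠ 0 := fun t => by positivity
  have hf : Continuous f := by
    refine Continuous.div (by fun_prop) (by fun_prop) hd
  have hfc : ContinuousOn f (spectrum ℝ b) := hf.continuousOn
  refine ⟨cfc f b, cfc_predicate f b, ?_, ?_⟩
  · refine norm_cfc_le zero_le_one fun t _ => ?_
    simp only [f, Real.norm_eq_abs]
    rw [abs_div, abs_of_pos (by positivity : (0 : ℝ) < 1 + t ^ 2), div_le_one (by positivity),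
      abs_mul, abs_two, ← sq_abs t]
    nlinarith [sq_nonneg (|t| - 1)]
  · have h1 : (2 : ℂ) • b = cfc (fun t : ℝ => 2 * t) b := by
      rw [cfc_const_mul (2 : ℝ) (fun t => t) b continuousOn_id, cfc_id' ℝ b, two_smul, two_smul]
    have h2 : (1 + b * b) * cfc f b = cfc (fun t : ℝ => (1 + t * t) * f t) b := by
      rw [cfc_mul (fun t => 1 + t * t) f b (by fun_prop) hfc,
        cfc_add b (fun _ => (1 : ℝ)) (fun t => t * t) continuousOn_const (by fun_prop),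
        cfc_mul (fun t => t) (fun t => t) b continuousOn_id continuousOn_id, cfc_id' ℝ b,
        cfc_const_one ℝ b]
    rw [h1, h2]
    refine cfc_congr fun t _ => ?_
    have := hd t
    simp only [f]
    field_simp

/-- resolvent estimates -/
theorem K4_bound {X : K →L[ℂ] K} (hX : IsSelfAdjoint X) (y : K) :
    ‖y‖ ≤ ‖(1 + X * X) y‖ ∧ ‖X y‖ ≤ ‖(1 + X * X) y‖ := by
  have hs := ContinuousLinearMap.isSelfAdjoint_iff_isSymmetric.mp hX
  have h1 : (inner ℂ y ((1 + X * X) y) : ℂ) = ((‖y‖ ^ 2 + ‖X y‖ ^ 2 : ℝ) : ℂ) := by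
    have h2 : (1 + X * X) y = y + X (X y) := by simp
    have h3 : (inner ℂ y (X (X y)) : ℂ) = inner ℂ (X y) (X y) := (hs y (X y)).symm
    rw [h2, inner_add_right, h3, inner_self_eq_norm_sq_to_K, inner_self_eq_norm_sq_to_K]
    push_cast
    rfl
  have h4 : ‖y‖ ^ 2 + ‖X y‖ ^ 2 ≤ ‖y‖ * ‖(1 + X * X) y‖ := by
    have h5 := norm_inner_le_norm (𝕜 := ℂ) y ((1 + X * X) y)
    rw [h1, Complex.norm_real, Real.norm_eq_abs, abs_of_nonneg (by positivity)] at h5
    exact h5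
  have hN0 := norm_nonneg ((1 + X * X) y)
  generalize ‖(1 + X * X) y‖ = N at *
  have h6 := norm_nonneg y
  have h7 := norm_nonneg (X y)
  have h8 : ‖y‖ ≤ N := by
    rcases h6.eq_or_lt with h | h
    · rw [← h]
      exact hN0
    · have : ‖y‖ * ‖y‖ ≤ ‖y‖ * N := by nlinarith [sq_nonneg ‖X y‖]
      exact le_of_mul_le_mul_left this h
  refine ⟨h8, ?_⟩
  have hN : 0 ≤ N := h6.trans h8
  refine abs_le_of_sq_le_sq' ?_ hN |>.2
  nlinarith [sq_nonneg (‖y‖ - N)]

/-- 1 + X ^ 2 is onto -/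
theorem K4_onto {X : K →L[ℂ] K} (hX : IsSelfAdjoint X) (y : K) : ∃ r : K, (1 + X * X) r = y := by
  have hd : ∀ t : ℝ, (1 + t * t) ≠ 0 := fun t =>
    (add_pos_of_pos_of_nonneg one_pos (mul_self_nonneg t)).ne'
  have hf : Continuous (fun t : ℝ => (1 + t * t)⁻¹) :=
    Continuous.inv₀ (by fun_prop) hd
  have h2 : (1 + X * X) * cfc (fun t : ℝ => (1 + t * t)⁻¹) X = 1 := by
    have h3 : (1 + X * X) * cfc (fun t : ℝ => (1 + t * t)⁻¹) X =
        cfc (fun t : ℝ => (1 + t * t) * (1 + t * t)⁻¹) X := by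
      rw [cfc_mul (fun t : ℝ => 1 + t * t) (fun t : ℝ => (1 + t * t)⁻¹) X (by fun_prop)
        hf.continuousOn,
        cfc_add X (fun _ => (1 : ℝ)) (fun t => t * t) continuousOn_const (by fun_prop),
        cfc_mul (fun t => t) (fun t => t) X continuousOn_id continuousOn_id, cfc_id' ℝ X,
        cfc_const_one ℝ X]
    rw [h3, ← cfc_const_one ℝ X]
    refine cfc_congr fun t _ => ?_
    exact mul_inv_cancel₀ (hd t)
  refine ⟨cfc (fun t : ℝ => (1 + t * t)⁻¹) X y, ?_⟩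
  rw [← mul_apply_eq_comp, h2, one_apply_eq_self]

theorem K4_kaplansky (hπ : Irr π) {S : K →L[ℂ] K} (hS : IsSelfAdjoint S) (hS1 : ‖S‖ ≤ 1)
    (ξ : K) {ε : ℝ} (hε : 0 < ε) :
    ∃ a : A, IsSelfAdjoint a ∧ ‖a‖ ≤ 1 ∧ ‖π a ξ - S ξ‖ < ε := by
  obtain ⟨S0, hS0, hSS⟩ := K4_inverse hS hS1
  obtain ⟨r, hr⟩ := K4_onto hS0 ξ
  obtain ⟨b, hb, hbz⟩ := k_sa hπ hS0 (![r, S0 r]) (ε := ε / 5) (by positivity)
  obtain ⟨a, ha, ha1, hab⟩ := K4_fun hb
  have h1 : ‖π b r - S0 r‖ < ε / 5 := by simpa using hbz 0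
  have h2 : ‖π b (S0 r) - S0 (S0 r)‖ < ε / 5 := by simpa using hbz 1
  refine ⟨a, ha, ha1, ?_⟩
  set X := π b with hX
  have hXsa : IsSelfAdjoint X := hb.map π
  have h3 : (1 + X * X) (π a ξ) = (2 : ℂ) • X ξ := by
    have h := congrArg (fun z => π z ξ) hab
    simpa using h
  have h4 : S ξ = (2 : ℂ) • S0 r := by
    have h := congrArg (fun z : K →L[ℂ] K => z r) hSS
    simp only [smul_apply, mul_apply_eq_comp] at h
    rw [h, ← hr]
  have hr' : ξ = r + S0 (S0 r) := by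
    rw [← hr]
    simp
  have h5 : (1 + X * X) (π a ξ - S ξ) =
      (2 : ℂ) • ((X r - S0 r) + X (S0 (S0 r) - X (S0 r))) := by
    rw [map_sub, h3, h4, hr']
    simp only [map_add, map_smul, map_sub, add_apply, one_apply_eq_self, mul_apply_eq_comp]
    module
  set w1 := X r - S0 r with hw1
  set w2 := S0 (S0 r) - X (S0 r) with hw2
  have h2' : ‖w2‖ < ε / 5 := by rw [hw2, norm_sub_rev]; exact h2
  obtain ⟨q1, hq1⟩ := K4_onto hXsa w1
  obtain ⟨q2, hq2⟩ := K4_onto hXsa w2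
  have h6 : (1 + X * X) (π a ξ - S ξ) = (1 + X * X) ((2 : ℂ) • (q1 + X q2)) := by
    have h7 : X w2 = (1 + X * X) (X q2) := by
      rw [← hq2]
      simp
    rw [h5, h7, ← hq1, map_smul, map_add]
  have h8 : π a ξ - S ξ = (2 : ℂ) • (q1 + X q2) := by
    have h9 := (K4_bound hXsa ((π a ξ - S ξ) - (2 : ℂ) • (q1 + X q2))).1
    rw [map_sub, h6, sub_self, norm_zero] at h9
    exact sub_eq_zero.mp (norm_le_zero_iff.mp h9)
  have h10 := (K4_bound hXsa q1).1
  have h11 := (K4_bound hXsa q2).2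
  rw [hq1] at h10
  rw [hq2] at h11
  rw [h8, norm_smul]
  have h12 := norm_add_le q1 (X q2)
  have h13 : ‖(2 : ℂ)‖ = 2 := by simp
  rw [h13]
  linarith

end P070
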