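import Vale.Agent.Lib.P070.K.K4

/-!
# P070 K5: one step of the transitivity theorem

S x = ⟪ξ, x⟫ η + ⟪η, x⟫ ξ - ⟪ξ, η⟫ ⟪ξ, x⟫ ξ (⟪ξ, η⟫ real): selfadjoint, norm ≤ 3 ‖η‖, S ξ = η.
K5_step: η = 0: a = 0.  Otherwise K4_kaplansky for (3 ‖η‖)⁻¹ S and ε / (3 ‖η‖).
-/

open Filter Topology

namespace P070

universe uA uK

variable {A : Type uA} [CStarAlgebra A] {K : Type uK} [NormedAddCommGroup K]
  [InnerProductSpace ℂ K] [CompleteSpace K] {π : A →⋆ₐ[ℂ] (K →L[ℂ] K)}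

theorem K5_rank2 {ξ η : K} (hξ : ‖ξ‖ = 1) (hr : (inner ℂ ξ η : ℂ).im = 0) :
    ∃ S : K →L[ℂ] K, IsSelfAdjoint S ∧ ‖S‖ ≤ 3 * ‖η‖ ∧ S ξ = η := by
  have hre : (starRingEnd ℂ) (inner ℂ ξ η : ℂ) = inner ℂ ξ η :=
    Complex.conj_eq_iff_im.mpr hr
  have hre2 : (inner ℂ η ξ : ℂ) = inner ℂ ξ η := by
    rw [← inner_conj_symm, hre]
  have hxx : (inner ℂ ξ ξ : ℂ) = 1 := by
    rw [inner_self_eq_norm_sq_to_K, hξ]
    norm_num
  let S : K →L[ℂ] K := (innerSL ℂ ξ).smulRight η + (innerSL ℂ η).smulRight ξ -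
    (inner ℂ ξ η : ℂ) • (innerSL ℂ ξ).smulRight ξ
  have hSx : ∀ x, S x = (inner ℂ ξ x : ℂ) • η + (inner ℂ η x : ℂ) • ξ -
      (inner ℂ ξ η : ℂ) • (inner ℂ ξ x : ℂ) • ξ := fun x => rfl
  refine ⟨S, ?_, ?_, ?_⟩
  · rw [ContinuousLinearMap.isSelfAdjoint_iff_isSymmetric]
    intro x y
    change inner ℂ (S x) y = inner ℂ x (S y)
    rw [hSx, hSx]
    simp only [inner_add_left, inner_sub_left, inner_add_right, inner_sub_right, inner_smul_left,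
      inner_smul_right, inner_conj_symm, hre]
    ring
  · have h1 : ‖(innerSL ℂ ξ).smulRight η‖ ≤ ‖η‖ := by
      rw [ContinuousLinearMap.norm_smulRight_apply, innerSL_apply_norm, hξ, one_mul]
    have h2 : ‖(innerSL ℂ η).smulRight ξ‖ ≤ ‖η‖ := by
      rw [ContinuousLinearMap.norm_smulRight_apply, innerSL_apply_norm, hξ, mul_one]
    have h3 : ‖(inner ℂ ξ η : ℂ) • (innerSL ℂ ξ).smulRight ξ‖ ≤ ‖η‖ := by
      rw [norm_smul, ContinuousLinearMap.norm_smulRight_apply, innerSL_apply_norm, hξ, mul_one,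
        mul_one]
      have := norm_inner_le_norm (𝕜 := ℂ) ξ η
      rwa [hξ, one_mul] at this
    have h4 := norm_sub_le ((innerSL ℂ ξ).smulRight η + (innerSL ℂ η).smulRight ξ)
      ((inner ℂ ξ η : ℂ) • (innerSL ℂ ξ).smulRight ξ)
    have h5 := norm_add_le ((innerSL ℂ ξ).smulRight η) ((innerSL ℂ η).smulRight ξ)
    change ‖_‖ ≤ _
    linarith
  · rw [hSx, hxx, hre2, one_smul, one_smul]
    abel

theorem K5_step (hπ : Irr π) {ξ η : K} (hξ : ‖ξ‖ = 1) (hr : (inner ℂ ξ η : ℂ).im = 0)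
    {ε : ℝ} (hε : 0 < ε) :
    ∃ a : A, IsSelfAdjoint a ∧ ‖a‖ ≤ 3 * ‖η‖ ∧ ‖π a ξ - η‖ < ε := by
  obtain ⟨S, hS, hSn, hSξ⟩ := K5_rank2 hξ hr
  rcases eq_or_ne η 0 with h0 | hη
  · refine ⟨0, IsSelfAdjoint.zero _, ?_, ?_⟩
    · rw [h0, norm_zero, norm_zero, mul_zero]
    · rw [map_zero, zero_apply, h0, sub_zero, norm_zero]
      exact hε
  have hc : 0 < 3 * ‖η‖ := by
    have := norm_pos_iff.mpr hη
    positivity
  obtain ⟨c, hcc⟩ : ∃ c : ℝ, c = 3 * ‖η‖ := ⟨_, rfl⟩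
  rw [← hcc] at hc hSn ⊢
  have hcn : ‖(c : ℂ)‖ = c := by rw [Complex.norm_real, Real.norm_eq_abs, abs_of_pos hc]
  have hc0 : (c : ℂ) ≠ 0 := by exact_mod_cast hc.ne'
  have hcs : IsSelfAdjoint (c : ℂ) := Complex.conj_ofReal c
  have hcs' : IsSelfAdjoint ((c : ℂ)⁻¹) := hcs.inv₀
  have h1 : IsSelfAdjoint ((c : ℂ)⁻¹ • S) := hcs'.smul hS
  have h2 : ‖(c : ℂ)⁻¹ • S‖ ≤ 1 := by
    rw [norm_smul, norm_inv, hcn, inv_mul_le_iff₀ hc, mul_one]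
    exact hSn
  obtain ⟨a, ha, ha1, haξ⟩ := K4_kaplansky hπ h1 h2 ξ (ε := ε / c) (by positivity)
  refine ⟨(c : ℂ) • a, hcs.smul ha, ?_, ?_⟩
  · rw [norm_smul, hcn]
    exact mul_le_of_le_one_right hc.le ha1
  · have h3 : π ((c : ℂ) • a) ξ - η = (c : ℂ) • (π a ξ - ((c : ℂ)⁻¹ • S) ξ) := by
      rw [map_smul, smul_sub, smul_apply, smul_apply, hSξ, smul_smul, mul_inv_cancel₀ hc0,
        one_smul]
    rw [h3, norm_smul, hcn]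
    rwa [lt_div_iff₀' hc] at haξ

end P070
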