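import Vale.Agent.Lib.P070.K.K5

/-!
# P070 K6: Kadison's transitivity theorem for one vector

Iterate K5_step: a_n selfadjoint with ‖a_n‖ ≤ 3 / 2 ^ n * (‖η‖ + 1) and ‖π (a_0 + .. + a_n) ξ - η‖ < 1 / 2 ^ (n + 1)
(the error η - π b ξ, b selfadjoint, has real inner product with ξ).  a = ∑ a_n.
partK: π a1 ξ = η, π a2 ξ = i η, a = (a1 - i a2) / 2.
-/

open Filter Topology

namespace P070

universe uA uK

variable {A : Type uA} [CStarAlgebra A] {K : Type uK} [NormedAddCommGroup K]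
  [InnerProductSpace ℂ K] [CompleteSpace K] {π : A →⋆ₐ[ℂ] (K →L[ℂ] K)}

theorem K6_im {a : A} (ha : IsSelfAdjoint a) (ξ : K) : (inner ℂ ξ (π a ξ) : ℂ).im = 0 := by
  have h := ContinuousLinearMap.isSelfAdjoint_iff_isSymmetric.mp (ha.map π)
  have h1 : (inner ℂ (π a ξ) ξ : ℂ) = inner ℂ ξ (π a ξ) := h ξ ξ
  rw [← Complex.conj_eq_iff_im, inner_conj_symm]
  exact h1

theorem K6_transitive (hπ : Irr π) {ξ η : K} (hξ : ‖ξ‖ = 1) (hr : (inner ℂ ξ η : ℂ).im = 0) :
    ∃ a : A, IsSelfAdjoint a ∧ π a ξ = η := by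
  have hstep : ∀ (n : ℕ) (e : {e : K // (inner ℂ ξ e : ℂ).im = 0}), ∃ a : A, IsSelfAdjoint a ∧
      ‖a‖ ≤ 3 * ‖e.1‖ ∧ ‖π a ξ - e.1‖ < (1 / 2 : ℝ) ^ n :=
    fun n e => K5_step hπ hξ e.2 (by positivity)
  choose F hF1 hF2 hF3 using hstep
  have hnext : ∀ (n : ℕ) (e : {e : K // (inner ℂ ξ e : ℂ).im = 0}),
      (inner ℂ ξ (e.1 - π (F n e) ξ) : ℂ).im = 0 := fun n e => by
    rw [inner_sub_right, Complex.sub_im, e.2, K6_im (hF1 n e) ξ, sub_zero]
  let E : ℕ → {e : K // (inner ℂ ξ e : ℂ).im = 0} := fun n =>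
    Nat.rec (⟨η, hr⟩ : {e : K // (inner ℂ ξ e : ℂ).im = 0})
      (fun k e => ⟨e.1 - π (F k e) ξ, hnext k e⟩) n
  have hE : ∀ n, (E (n + 1)).1 = (E n).1 - π (F n (E n)) ξ := fun n => rfl
  have hE0 : (E 0).1 = η := rfl
  have hEn : ∀ n, ‖(E (n + 1)).1‖ ≤ (1 / 2 : ℝ) ^ n := fun n => by
    rw [hE, norm_sub_rev]
    exact (hF3 n (E n)).le
  have hsum : Summable fun n => F n (E n) := by
    rw [← summable_nat_add_iff 1]
    refine Summable.of_norm_bounded (g := fun n : ℕ => 3 * (1 / 2 : ℝ) ^ n)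
      ((summable_geometric_of_lt_one (by norm_num) (by norm_num)).mul_left 3) fun n => ?_
    exact (hF2 (n + 1) (E (n + 1))).trans
      (mul_le_mul_of_nonneg_left (hEn n) (by norm_num))
  refine ⟨∑' n, F n (E n), ?_, ?_⟩
  · have h1 : HasSum (fun n => star (F n (E n))) (star (∑' n, F n (E n))) := hsum.hasSum.star
    have h2 : (fun n => star (F n (E n))) = fun n => F n (E n) :=
      funext fun n => (hF1 n (E n)).star_eq
    rw [h2] at h1
    exact h1.unique hsum.hasSum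
  · have hpart : ∀ N, ∑ n ∈ Finset.range N, π (F n (E n)) ξ = η - (E N).1 := fun N => by
      induction N with
      | zero => simp [hE0]
      | succ N ih => rw [Finset.sum_range_succ, ih, hE]; abel
    have h1 : HasSum (fun n => π (F n (E n)) ξ) (π (∑' n, F n (E n)) ξ) := by
      have hc : Continuous fun a : A => π a ξ := by
        have h2 : Continuous π :=
          AddMonoidHomClass.continuous_of_bound π 1 fun a => by
            rw [one_mul]
            exact NonUnitalStarAlgHom.norm_apply_le π a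
        exact (ContinuousLinearMap.apply ℂ K ξ).continuous.comp h2
      exact hsum.hasSum.map (AddMonoidHom.mk' (fun a : A => π a ξ) (fun a b => by simp)) hc
    have h2 : Tendsto (fun N => ∑ n ∈ Finset.range N, π (F n (E n)) ξ) atTop
        (𝓝 (π (∑' n, F n (E n)) ξ)) := h1.tendsto_sum_nat
    have h3 : Tendsto (fun N => (E N).1) atTop (𝓝 0) := by
      rw [← tendsto_add_atTop_iff_nat 1]
      exact squeeze_zero_norm hEn (tendsto_pow_atTop_nhds_zero_of_lt_one (by norm_num)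
        (by norm_num))
    have h4 : Tendsto (fun N => η - (E N).1) atTop (𝓝 (η - 0)) := tendsto_const_nhds.sub h3
    rw [sub_zero] at h4
    exact tendsto_nhds_unique h2 (h4.congr fun N => (hpart N).symm)

theorem K6_main (hπ : Irr π) {ξ η : K} (hξ : ‖ξ‖ = 1) (hr : (inner ℂ ξ η : ℂ) = 0) :
    ∃ a : A, π a ξ = η ∧ π (star a) ξ = 0 := by
  obtain ⟨a1, h1, h1'⟩ := K6_transitive (π := π) (η := η) hπ hξ (by rw [hr]; rfl)
  obtain ⟨a2, h2, h2'⟩ := K6_transitive (π := π) (η := Complex.I • η) hπ hξ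
    (by rw [inner_smul_right, hr, mul_zero]; rfl)
  refine ⟨(1 / 2 : ℂ) • (a1 - Complex.I • a2), ?_, ?_⟩
  · rw [map_smul, map_sub, map_smul]
    simp only [smul_apply, sub_apply]
    rw [h1', h2', smul_smul, Complex.I_mul_I]
    module
  · rw [star_smul, star_sub, star_smul, h1.star_eq, h2.star_eq, map_smul, map_sub, map_smul]
    simp only [smul_apply, sub_apply]
    rw [h1', h2', smul_smul]
    have h3 : star Complex.I * Complex.I = 1 := by simp
    rw [h3, one_smul, sub_self, smul_zero]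

end P070
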