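import Vale.Agent.Lib.P070.K.Dens

/-!
# P070, part K: the density theorem for selfadjoint elements
-/

open scoped ComplexStarModule

namespace P070

universe u v

variable {A : Type u} [CStarAlgebra A] {K : Type v} [NormedAddCommGroup K]
  [InnerProductSpace ℂ K] [CompleteSpace K] {π : A →⋆ₐ[ℂ] (K →L[ℂ] K)}

theorem k_sa_zero (h : Irr π) {n : ℕ} {S : K →L[ℂ] K} (z y : Fin n → K)
    (hy : ∀ a : A, IsSelfAdjoint a → (∑ i, inner ℂ (y i) (π a (z i))).re = 0) :
    ∑ i, (inner ℂ (y i) (S (z i)) + inner ℂ (z i) (S (y i))) = 0 := by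
  have h1 : ∀ a : A, IsSelfAdjoint a →
      ∑ i, (inner ℂ (y i) (π a (z i)) + inner ℂ (z i) (π a (y i))) = 0 := by
    intro a ha
    have h2 : ∀ i, inner ℂ (z i) (π a (y i)) =
        (starRingEnd ℂ) (inner ℂ (y i) (π a (z i))) := by
      intro i
      rw [inner_conj_symm]
      have h3 : π a = ContinuousLinearMap.adjoint (π a) := by
        rw [← ContinuousLinearMap.star_eq_adjoint, ← map_star, ha.star_eq]
      conv_lhs => rw [h3]
      rw [ContinuousLinearMap.adjoint_inner_right]
    simp only [h2, Complex.add_conj]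
    rw [← Complex.ofReal_sum, ← Finset.mul_sum, ← Complex.re_sum, hy a ha]
    simp
  have h2 : ∀ a : A, ∑ i, (inner ℂ (y i) (π a (z i)) + inner ℂ (z i) (π a (y i))) = 0 := by
    intro a
    have h3 := h1 _ (ℜ a).2
    have h4 := h1 _ (ℑ a).2
    have h5 : ∀ i, inner ℂ (y i) (π a (z i)) + inner ℂ (z i) (π a (y i)) =
        (inner ℂ (y i) (π (ℜ a : A) (z i)) + inner ℂ (z i) (π (ℜ a : A) (y i))) +
        Complex.I * (inner ℂ (y i) (π (ℑ a : A) (z i)) + inner ℂ (z i) (π (ℑ a : A) (y i))) := by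
      intro i
      conv_lhs => rw [← realPart_add_I_smul_imaginaryPart a]
      rw [map_add, map_smul, add_apply, smul_apply, add_apply, smul_apply, inner_add_right,
        inner_add_right, inner_smul_right, inner_smul_right]
      ring
    rw [Finset.sum_congr rfl fun i _ => h5 i, Finset.sum_add_distrib, ← Finset.mul_sum, h3, h4]
    simp
  set C : ℝ := ∑ i, (‖y i‖ + ‖z i‖) with hC
  have hC0 : 0 ≤ C := Finset.sum_nonneg fun i _ => by positivity
  have h3 : ‖∑ i, (inner ℂ (y i) (S (z i)) + inner ℂ (z i) (S (y i)))‖ ≤ 0 := by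
    refine le_of_forall_pos_le_add fun ε hε => ?_
    rw [zero_add]
    have hδ : 0 < ε / (C + 1) := by positivity
    obtain ⟨a, ha⟩ := k_dens h S (Fin.append z y) hδ
    have e1 : ∀ i, ‖π a (z i) - S (z i)‖ ≤ ε / (C + 1) := by
      intro i
      have := ha (Fin.castAdd n i)
      rw [Fin.append_left] at this
      exact this.le
    have e2 : ∀ i, ‖π a (y i) - S (y i)‖ ≤ ε / (C + 1) := by
      intro i
      have := ha (Fin.natAdd n i)
      rw [Fin.append_right] at this
      exact this.le
    have e3 : ∑ i, (inner ℂ (y i) (S (z i)) + inner ℂ (z i) (S (y i))) =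
        -∑ i, (inner ℂ (y i) (π a (z i) - S (z i)) + inner ℂ (z i) (π a (y i) - S (y i))) := by
      have e4 : ∀ i, inner ℂ (y i) (π a (z i) - S (z i)) + inner ℂ (z i) (π a (y i) - S (y i)) =
          (inner ℂ (y i) (π a (z i)) + inner ℂ (z i) (π a (y i))) -
          (inner ℂ (y i) (S (z i)) + inner ℂ (z i) (S (y i))) := by
        intro i
        rw [inner_sub_right, inner_sub_right]
        ring
      rw [Finset.sum_congr rfl fun i _ => e4 i, Finset.sum_sub_distrib, h2 a, zero_sub, neg_neg]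
    rw [e3, norm_neg]
    calc ‖∑ i, (inner ℂ (y i) (π a (z i) - S (z i)) + inner ℂ (z i) (π a (y i) - S (y i)))‖
        ≤ ∑ i, ‖inner ℂ (y i) (π a (z i) - S (z i)) + inner ℂ (z i) (π a (y i) - S (y i))‖ :=
          norm_sum_le _ _
      _ ≤ ∑ i, (‖y i‖ + ‖z i‖) * (ε / (C + 1)) := by
          refine Finset.sum_le_sum fun i _ => ?_
          refine (norm_add_le _ _).trans ?_
          rw [add_mul]
          exact add_le_add ((norm_inner_le_norm _ _).trans
              (mul_le_mul_of_nonneg_left (e1 i) (norm_nonneg _)))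
            ((norm_inner_le_norm _ _).trans (mul_le_mul_of_nonneg_left (e2 i) (norm_nonneg _)))
      _ = C * (ε / (C + 1)) := by rw [← Finset.sum_mul]
      _ ≤ (C + 1) * (ε / (C + 1)) := mul_le_mul_of_nonneg_right (by linarith) hδ.le
      _ = ε := by field_simp
  exact norm_le_zero_iff.1 h3

theorem k_sa (h : Irr π) {n : ℕ} {S : K →L[ℂ] K} (hS : IsSelfAdjoint S) (z : Fin n → K)
    {ε : ℝ} (hε : 0 < ε) :
    ∃ a : A, IsSelfAdjoint a ∧ ∀ i, ‖π a (z i) - S (z i)‖ < ε := by
  let _ : InnerProductSpace ℝ (PiLp 2 (fun _ : Fin n => K)) :=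
    @PiLp.innerProductSpace ℝ _ _ _ (fun _ : Fin n => K) _ (fun _ => InnerProductSpace.complexToReal)
  let L : selfAdjoint A →ₗ[ℝ] PiLp 2 (fun _ : Fin n => K) :=
    ((kOrb π z).restrictScalars ℝ) ∘ₗ (selfAdjoint.submodule ℝ A).subtype
  have hL : ∀ a : selfAdjoint A, L a = kOrb π z (a : A) := fun a => rfl
  set V : Submodule ℝ (PiLp 2 (fun _ : Fin n => K)) :=
    (LinearMap.range L).topologicalClosure with hV
  have hVc : IsClosed (V : Set (PiLp 2 (fun _ : Fin n => K))) :=
    Submodule.isClosed_topologicalClosure _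
  have : CompleteSpace V := hVc.completeSpace_coe
  set w : PiLp 2 (fun _ : Fin n => K) := kDiag n S (kOrb π z 1) with hw
  set y : PiLp 2 (fun _ : Fin n => K) := w - V.starProjection w with hy
  have hyV : y ∈ Vᗮ := Submodule.sub_starProjection_mem_orthogonal w
  have hre : ∀ x x' : PiLp 2 (fun _ : Fin n => K), inner ℝ x x' = (inner ℂ x x').re := by
    intro x x'
    rw [PiLp.inner_apply (𝕜 := ℂ), Complex.re_sum]
    rfl
  have h1 : ∀ a : A, IsSelfAdjoint a → (∑ i, inner ℂ (y i) (π a (z i))).re = 0 := by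
    intro a ha
    have h2 : kOrb π z a ∈ V := Submodule.le_topologicalClosure _ ⟨⟨a, ha⟩, rfl⟩
    have h3 := Submodule.inner_left_of_mem_orthogonal h2 hyV
    rw [hre, PiLp.inner_apply] at h3
    exact h3
  have h2 := k_sa_zero h (S := S) z (fun i => y i) h1
  have h3 : inner ℝ y w = 0 := by
    rw [hre, PiLp.inner_apply]
    have h4 : ∀ i, inner ℂ (z i) (S (y i)) = (starRingEnd ℂ) (inner ℂ (y i) (S (z i))) := by
      intro i
      rw [inner_conj_symm]
      have h5 : S = ContinuousLinearMap.adjoint S := by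
        rw [← ContinuousLinearMap.star_eq_adjoint, hS.star_eq]
      conv_lhs => rw [h5]
      rw [ContinuousLinearMap.adjoint_inner_right]
    simp only [h4, Complex.add_conj] at h2
    rw [← Complex.ofReal_sum, ← Finset.mul_sum, Complex.ofReal_eq_zero] at h2
    have h6 : ∀ i, w i = S (z i) := by
      intro i
      rw [hw, kDiag_apply, kOrb_apply, map_one]
      rfl
    rw [Complex.re_sum]
    simp only [h6]
    linarith
  have h4 : inner ℝ y (V.starProjection w) = 0 :=
    Submodule.inner_left_of_mem_orthogonal (Submodule.starProjection_apply_mem V w) hyV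
  have h5 : y = 0 := by
    have h6 : inner ℝ y y = 0 := by
      conv_lhs => rw [hy]
      rw [← hy, inner_sub_right, h3, h4, sub_zero]
    exact inner_self_eq_zero.1 h6
  have h6 : w ∈ V := by
    have h7 : w = V.starProjection w := sub_eq_zero.1 h5
    rw [h7]
    exact Submodule.starProjection_apply_mem V w
  have h7 : w ∈ closure ((LinearMap.range L : Submodule ℝ _) :
        Set (PiLp 2 (fun _ : Fin n => K))) := h6
  obtain ⟨_, ⟨a, rfl⟩, ha⟩ := Metric.mem_closure_iff.1 h7 ε hε
  refine ⟨(a : A), a.2, fun i => ?_⟩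
  rw [dist_comm, dist_eq_norm, hL] at ha
  have h8 := PiLp.norm_apply_le (kOrb π z (a : A) - w) i
  have h9 : (kOrb π z (a : A) - w) i = π (a : A) (z i) - S (z i) := by
    rw [PiLp.sub_apply, hw, kDiag_apply, kOrb_apply, kOrb_apply, map_one]
    rfl
  rw [h9] at h8
  exact h8.trans_lt ha

end P070
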