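import Vale.Agent.Lib.P070.Defs

/-!
# P070, part K: Schur's lemma
-/

namespace P070

universe u v

variable {A : Type u} [CStarAlgebra A] {K : Type v} [NormedAddCommGroup K]
  [InnerProductSpace ℂ K] [CompleteSpace K] {π : A →⋆ₐ[ℂ] (K →L[ℂ] K)}

theorem k_schur_sa (h : Irr π) {T : K →L[ℂ] K} (hT : IsSelfAdjoint T)
    (hc : ∀ a, Commute (π a) T) : ∃ r : ℂ, T = r • (1 : K →L[ℂ] K) := by
  rcases subsingleton_or_nontrivial K with hK | hK
  · exact ⟨0, ContinuousLinearMap.ext fun x => Subsingleton.elim _ _⟩
  have hne : (spectrum ℝ T).Nonempty := ContinuousFunctionalCalculus.spectrum_nonempty T hT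
  obtain ⟨s, hs⟩ := hne
  have hsub : ∀ t ∈ spectrum ℝ T, t = s := by
    intro t ht
    by_contra hts
    -- two disjoint bumps
    let f : ℝ → ℝ := fun x => max (|s - t| / 2 - |x - s|) 0
    let g : ℝ → ℝ := fun x => max (|s - t| / 2 - |x - t|) 0
    have hf : Continuous f := by fun_prop
    have hg : Continuous g := by fun_prop
    have hst : 0 < |s - t| := abs_pos.2 (sub_ne_zero.2 (Ne.symm hts))
    have hfg : ∀ x, f x * g x = 0 := by
      intro x
      by_contra hne
      have h1 : f x ≠ 0 := left_ne_zero_of_mul hne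
      have h2 : g x ≠ 0 := right_ne_zero_of_mul hne
      have h3 : 0 < |s - t| / 2 - |x - s| := by
        by_contra hcon
        exact h1 (max_eq_right (not_lt.1 hcon))
      have h4 : 0 < |s - t| / 2 - |x - t| := by
        by_contra hcon
        exact h2 (max_eq_right (not_lt.1 hcon))
      have h5 : |s - t| ≤ |x - s| + |x - t| := by
        have := abs_sub_le s x t
        rw [abs_sub_comm s x] at this
        exact this
      linarith
    have hfT : cfc f T ≠ 0 := by
      intro h0
      have h1 : f s ∈ spectrum ℝ (cfc f T) := by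
        rw [cfc_map_spectrum f T hT hf.continuousOn]
        exact ⟨s, hs, rfl⟩
      rw [h0, spectrum.zero_eq] at h1
      have h2 : f s = 0 := h1
      simp only [f, sub_self, abs_zero, sub_zero] at h2
      rw [max_eq_left (by positivity)] at h2
      linarith
    have hgT : cfc g T ≠ 0 := by
      intro h0
      have h1 : g t ∈ spectrum ℝ (cfc g T) := by
        rw [cfc_map_spectrum g T hT hg.continuousOn]
        exact ⟨t, ht, rfl⟩
      rw [h0, spectrum.zero_eq] at h1
      have h2 : g t = 0 := h1
      simp only [g, sub_self, abs_zero, sub_zero] at h2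
      rw [max_eq_left (by positivity)] at h2
      linarith
    have hmul : cfc f T * cfc g T = 0 := by
      rw [← cfc_mul f g T hf.continuousOn hg.continuousOn]
      have : (fun x => f x * g x) = fun _ => (0 : ℝ) := funext hfg
      rw [this, cfc_const_zero]
    have hcf : ∀ a, Commute (π a) (cfc f T) := by
      intro a
      exact (hc a).symm.cfc_real f |>.symm
    rcases h (LinearMap.ker (cfc f T : K →L[ℂ] K).toLinearMap)
      (cfc f T : K →L[ℂ] K).isClosed_ker (by
        intro a v hv
        rw [LinearMap.mem_ker] at hv ⊢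
        have h1 : π a (cfc f T v) = cfc f T (π a v) :=
          congrArg (fun S : K →L[ℂ] K => S v) (hcf a).eq
        have hv' : (cfc f T) v = 0 := hv
        rw [hv', map_zero] at h1
        exact h1.symm) with h1 | h1
    · apply hgT
      ext v
      have h2 : cfc g T v ∈ LinearMap.ker (cfc f T : K →L[ℂ] K).toLinearMap := by
        rw [LinearMap.mem_ker]
        exact congrArg (fun S : K →L[ℂ] K => S v) hmul
      rw [h1] at h2
      exact h2
    · apply hfT
      ext v
      have h2 : v ∈ LinearMap.ker (cfc f T : K →L[ℂ] K).toLinearMap := by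
        rw [h1]
        exact Submodule.mem_top
      exact h2
  refine ⟨(s : ℂ), ?_⟩
  have h1 : cfc (fun x : ℝ => x) T = cfc (fun _ : ℝ => s) T := cfc_congr fun x hx => hsub x hx
  rw [cfc_id' ℝ T hT, cfc_const s T hT] at h1
  rw [h1, Algebra.algebraMap_eq_smul_one]
  ext v
  simp

theorem k_schur (h : Irr π) {T : K →L[ℂ] K}
    (hc : ∀ a, Commute (π a) T) : ∃ r : ℂ, T = r • (1 : K →L[ℂ] K) := by
  have hs : ∀ a, Commute (π a) (star T) := by
    intro a
    have h1 := (hc (star a)).star_star
    rwa [map_star, star_star] at h1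
  obtain ⟨r, hr⟩ := k_schur_sa h (T := T + star T) (IsSelfAdjoint.add_star_self T)
    fun a => (hc a).add_right (hs a)
  obtain ⟨t, ht⟩ := k_schur_sa h (T := Complex.I • (T - star T)) (by
      rw [isSelfAdjoint_iff, star_smul, star_sub, star_star]
      simp only [RCLike.star_def, Complex.conj_I, neg_smul]
      rw [← smul_neg, neg_sub])
    fun a => ((hc a).sub_right (hs a)).smul_right _
  refine ⟨(r - Complex.I * t) / 2, ?_⟩
  have h1 : T = (2 : ℂ)⁻¹ • ((T + star T) - Complex.I • (Complex.I • (T - star T))) := by
    rw [smul_smul, Complex.I_mul_I, neg_smul, one_smul, sub_neg_eq_add]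
    have : T + star T + (T - star T) = (2 : ℂ) • T := by
      rw [two_smul]
      abel
    rw [this, smul_smul]
    norm_num
  rw [h1, hr, ht, smul_smul, ← sub_smul, smul_smul]
  congr 1
  ring

end P070
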